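import Vale.Agent.P046.Defs

/-! P046: double counting for the deletion of one triangle. -/

open Finset

namespace Vale.Agent.P046

variable {α : Type*} [DecidableEq α] [Fintype α] {G : Finset (Finset α)} {t k e : Finset α}

theorem mem_tri : t ∈ tri G ↔ t.card = 3 ∧ sides t ⊆ G := by
  simp [tri, mem_powersetCard]

theorem card_sides (ht : t ∈ tri G) : (sides t).card = 3 := by
  rw [sides, card_powersetCard, (mem_tri.1 ht).1]; decide

theorem card_inter_sides (hk : k ∈ tri G) (ht : t ∈ tri G) (hne : k ≠ t) :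
    (sides k ∩ sides t).card ≤ 1 := by
  have e : sides k ∩ sides t = (k ∩ t).powersetCard 2 := by
    ext i; simp [sides, mem_powersetCard, subset_inter_iff]; tauto
  have hlt : (k ∩ t).card < 3 := by
    by_contra hcon
    push Not at hcon
    have hk3 := (mem_tri.1 hk).1
    have ht3 := (mem_tri.1 ht).1
    have h1 : k ∩ t = k := eq_of_subset_of_card_le inter_subset_left (by omega)
    have h2 : k ∩ t = t := eq_of_subset_of_card_le inter_subset_right (by omega)
    exact hne (h1.symm.trans h2)
  rw [e, card_powersetCard]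
  calc (k ∩ t).card.choose 2 ≤ Nat.choose 2 2 := Nat.choose_le_choose 2 (by omega)
    _ = 1 := rfl

theorem eq_of_two_sides {i j : Finset α} (hk : k ∈ tri G) (ht : t ∈ tri G) (hij : i ≠ j)
    (h1 : i ∈ sides k) (h2 : j ∈ sides k) (h3 : i ∈ sides t) (h4 : j ∈ sides t) : k = t := by
  by_contra hne
  exact hij (card_le_one.1 (card_inter_sides hk ht hne) i (by simp [h1, h3]) j (by simp [h2, h4]))

/-- The number of triangles on an edge. -/
def deg (G : Finset (Finset α)) (e : Finset α) : ℕ := ((tri G).filter (e ∈ sides ·)).card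

theorem deg_pos (ht : t ∈ tri G) (he : e ∈ sides t) : 0 < deg G e :=
  card_pos.2 ⟨t, by simp [ht, he]⟩

theorem sum_tri_sides (G : Finset (Finset α)) (f : Finset α → ℝ) :
    ∑ t ∈ tri G, ∑ i ∈ sides t, f i = ∑ i ∈ G, (deg G i : ℝ) * f i := by
  rw [sum_comm' (t' := G) (s' := fun i => (tri G).filter (i ∈ sides ·))]
  · simp [deg, sum_const, nsmul_eq_mul]
  · intro a b
    simp only [mem_filter]
    exact ⟨fun h => ⟨⟨h.1, h.2⟩, (mem_tri.1 h.1).2 h.2⟩, fun h => h.1⟩

theorem sum_deg (G : Finset (Finset α)) :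
    ∑ i ∈ G, (deg G i : ℝ) = 3 * ((tri G).card : ℝ) := by
  have h := sum_tri_sides G (fun _ => (1 : ℝ))
  simp only [mul_one] at h
  rw [← h, sum_congr rfl (fun t ht => show ∑ _i ∈ sides t, (1:ℝ) = 3 by simp [card_sides ht])]
  simp [mul_comm]

theorem two_deg_le (e : Finset α) : 2 * deg G e ≤ G.card := by
  set T := (tri G).filter (e ∈ sides ·) with hT
  have hd : (T : Set (Finset α)).PairwiseDisjoint fun t => (sides t).erase e := by
    intro a ha b hb hab
    simp only [hT, coe_filter, Set.mem_ofPred_eq] at ha hb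
    refine disjoint_left.2 fun i hia hib => hab ?_
    rw [mem_erase] at hia hib
    exact eq_of_two_sides ha.1 hb.1 hia.1 hia.2 ha.2 hib.2 hb.2
  have hc : (T.biUnion fun t => (sides t).erase e).card = 2 * T.card := by
    rw [card_biUnion hd, mul_comm, ← smul_eq_mul, ← sum_const]
    refine sum_congr rfl fun t ht => ?_
    simp only [hT, mem_filter] at ht
    rw [card_erase_of_mem ht.2, card_sides ht.1]
  rw [deg, ← hT, ← hc]
  refine card_le_card (biUnion_subset.2 fun t ht => ?_)
  exact (erase_subset _ _).trans (mem_tri.1 (mem_filter.1 ht).1).2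

theorem tri_sdiff (G : Finset (Finset α)) (t : Finset α) :
    tri (G \ sides t) = (tri G).filter (fun k => Disjoint (sides k) (sides t)) := by
  ext k
  simp [mem_tri, subset_sdiff, and_assoc]

/-- The triangles other than `t` destroyed by deleting `t`. -/
def killed (G : Finset (Finset α)) (t : Finset α) : Finset (Finset α) :=
  (tri G).filter fun k => k ≠ t ∧ ¬ Disjoint (sides k) (sides t)

/-- How many destroyed triangles contain the edge `e`. -/
def dkill (G : Finset (Finset α)) (t e : Finset α) : ℕ :=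
  ((killed G t).filter (e ∈ sides ·)).card

theorem deg_sdiff (he : e ∉ sides t) :
    deg (G \ sides t) e + dkill G t e = deg G e := by
  rw [deg, deg, dkill, tri_sdiff,
    ← card_filter_add_card_filter_not (s := (tri G).filter (e ∈ sides ·))
      (fun k => Disjoint (sides k) (sides t))]
  congr 1
  · congr 1; ext k; simp [and_comm, and_left_comm]
  · congr 1; ext k
    simp only [killed, mem_filter]
    constructor
    · rintro ⟨⟨h1, _, h2⟩, h3⟩; exact ⟨⟨h1, h3⟩, h2⟩
    · rintro ⟨⟨h1, h3⟩, h2⟩; exact ⟨⟨h1, fun h => he (h ▸ h3), h2⟩, h3⟩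

theorem dkill_le (ht : t ∈ tri G) (he : e ∉ sides t) : dkill G t e ≤ 3 := by
  refine le_trans (card_le_card (t := (sides t).biUnion fun i =>
    ((killed G t).filter (e ∈ sides ·)).filter (i ∈ sides ·)) ?_) ?_
  · intro k hk
    obtain ⟨i, h1, h2⟩ := not_disjoint_iff.1 (mem_filter.1 (mem_filter.1 hk).1).2.2
    exact mem_biUnion.2 ⟨i, h2, mem_filter.2 ⟨hk, h1⟩⟩
  · refine (card_biUnion_le_card_mul _ _ 1 fun i hi => ?_).trans (by rw [card_sides ht])
    refine card_le_one.2 fun a ha b hb => ?_
    simp only [mem_filter, killed] at ha hb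
    exact eq_of_two_sides ha.1.1.1 hb.1.1.1 (fun (h : e = i) => he (h.symm ▸ hi)) ha.1.2 ha.2 hb.1.2 hb.2

theorem killed_symm {a b : Finset α} :
    (a ∈ tri G ∧ b ∈ killed G a) ↔ (a ∈ killed G b ∧ b ∈ tri G) := by
  simp only [killed, mem_filter, ne_eq, disjoint_comm (a := sides b)]
  constructor
  · rintro ⟨h1, h2, h3, h4⟩; exact ⟨⟨h1, Ne.symm h3, h4⟩, h2⟩
  · rintro ⟨⟨h1, h3, h4⟩, h2⟩; exact ⟨h1, h2, Ne.symm h3, h4⟩

theorem killed_on_side {i : Finset α} (hk : k ∈ tri G) (hi : i ∈ sides k) :
    (((killed G k).filter (i ∈ sides ·)).card : ℝ) = deg G i - 1 := by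
  have e : (killed G k).filter (i ∈ sides ·) = ((tri G).filter (i ∈ sides ·)).erase k := by
    ext a
    simp only [killed, mem_filter, mem_erase]
    constructor
    · rintro ⟨⟨h1, h2, _⟩, h3⟩; exact ⟨h2, h1, h3⟩
    · rintro ⟨h2, h1, h3⟩; exact ⟨⟨h1, h2, not_disjoint_iff.2 ⟨i, h3, hi⟩⟩, h3⟩
  rw [e, cast_card_erase_of_mem (by simp [hk, hi])]
  rfl

theorem card_killed (hk : k ∈ tri G) :
    ((killed G k).card : ℝ) = (∑ j ∈ sides k, (deg G j : ℝ)) - 3 := by
  have h1 : ∀ a ∈ killed G k, ((sides k).filter (· ∈ sides a)).card = 1 := by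
    intro a ha
    simp only [killed, mem_filter] at ha
    rw [filter_mem_eq_inter]
    refine le_antisymm (card_inter_sides hk ha.1 (Ne.symm ha.2.1)) (card_pos.2 ?_)
    obtain ⟨i, h2, h3⟩ := not_disjoint_iff.1 ha.2.2
    exact ⟨i, mem_inter.2 ⟨h3, h2⟩⟩
  have h2 : (killed G k).card = ∑ j ∈ sides k, ((killed G k).filter (j ∈ sides ·)).card := by
    rw [card_eq_sum_ones, ← sum_congr rfl h1]
    simp only [card_filter]
    exact sum_comm
  rw [h2, Nat.cast_sum, sum_congr rfl (fun j hj => killed_on_side hk hj), sum_sub_distrib]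
  simp [card_sides hk]

/-- The double count of the destroyed triangles. -/
theorem sum_dkill (G : Finset (Finset α)) (f : Finset α → ℝ) :
    ∑ t ∈ tri G, ∑ i ∈ G \ sides t, (dkill G t i : ℝ) * f i
      = ∑ k ∈ tri G, ∑ i ∈ sides k,
          f i * ((∑ j ∈ sides k, (deg G j : ℝ)) - deg G i - 2) := by
  have h1 : ∀ t, ∑ i ∈ G \ sides t, (dkill G t i : ℝ) * f i
      = ∑ k ∈ killed G t, ∑ i ∈ sides k \ sides t, f i := by
    intro t
    rw [sum_comm' (t' := G \ sides t) (s' := fun i => (killed G t).filter (i ∈ sides ·))]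
    · simp [dkill, sum_const, nsmul_eq_mul]
    · intro a b
      simp only [mem_filter, mem_sdiff]
      constructor
      · rintro ⟨ha, hb, hb'⟩
        exact ⟨⟨ha, hb⟩, (mem_tri.1 (mem_filter.1 ha).1).2 hb, hb'⟩
      · rintro ⟨⟨ha, hb⟩, _, hb'⟩; exact ⟨ha, hb, hb'⟩
  rw [sum_congr rfl (fun t _ => h1 t),
    sum_comm' (t' := tri G) (s' := fun k => killed G k) (fun a b => killed_symm)]
  refine sum_congr rfl fun k hk => ?_
  rw [sum_comm' (t' := sides k) (s' := fun i => (killed G k).filter (i ∉ sides ·))]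
  · refine sum_congr rfl fun i hi => ?_
    rw [sum_const, nsmul_eq_mul, mul_comm (f i)]
    congr 1
    have h2 := card_filter_add_card_filter_not (s := killed G k) (i ∈ sides ·)
    have h3 := killed_on_side hk hi
    have h4 := card_killed hk
    rw [← h2, Nat.cast_add] at h4
    linarith
  · intro a b
    simp only [mem_filter, mem_sdiff]
    tauto

theorem deg_complete {n : ℕ} {e : Finset (Fin n)} (he : e ∈ complete n) :
    deg (complete n) e = n - 2 := by
  have hc : e.card = 2 := by simpa [complete] using he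
  have h : (tri (complete n)).filter (e ∈ sides ·) = (univ \ e).image (insert · e) := by
    ext t
    simp only [mem_filter, mem_tri, sides, complete, mem_powersetCard, mem_image, mem_sdiff,
      mem_univ, true_and]
    constructor
    · rintro ⟨⟨ht, _⟩, hs, _⟩
      obtain ⟨x, hx⟩ := card_eq_one.1 (show (t \ e).card = 1 by rw [card_sdiff_of_subset hs]; omega)
      have hx' : x ∈ t ∧ x ∉ e := mem_sdiff.1 (hx ▸ mem_singleton_self x)
      refine ⟨x, hx'.2, ?_⟩
      rw [← union_sdiff_of_subset hs, hx, union_comm]; rfl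
    · rintro ⟨x, hx, rfl⟩
      exact ⟨⟨by rw [card_insert_of_notMem hx]; omega, powersetCard_mono (subset_univ _)⟩,
        subset_insert _ _, hc⟩
  rw [deg, h, card_image_of_injOn]
  · rw [card_univ_sdiff, Fintype.card_fin, hc]
  · intro a ha b hb hab
    simp only [coe_sdiff, Set.mem_sdiff, mem_coe, coe_univ, Set.mem_univ, true_and] at ha hb
    simp only at hab
    have : a ∈ insert b e := hab ▸ mem_insert_self a e
    exact (mem_insert.1 this).resolve_right ha

end Vale.Agent.P046
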