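import Mathlib

/-! P046: random triangle removal, as a recursion on edge sets. -/

open Finset

namespace Vale.Agent.P046

variable {α : Type*} [DecidableEq α]

/-- The three sides of a triple: its two-element subsets. -/
def sides (t : Finset α) : Finset (Finset α) := t.powersetCard 2

variable [Fintype α]

/-- The triangles of an edge set: triples all of whose sides are present. -/
def tri (G : Finset (Finset α)) : Finset (Finset α) :=
  (univ.powersetCard 3).filter fun t => sides t ⊆ G

theorem card_removed_lt {G : Finset (Finset α)} {t : Finset α} (ht : t ∈ tri G) :
    (G \ sides t).card < G.card := by
  simp only [tri, mem_filter, mem_powersetCard] at ht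
  refine card_lt_card (sdiff_ssubset ht.2 ?_)
  rw [sides, powersetCard_nonempty]
  omega

/-- The expected number of edges left when a uniformly chosen triangle is deleted repeatedly
until no triangle is left. -/
noncomputable def leave (G : Finset (Finset α)) : ℝ :=
  if (tri G).Nonempty then
    (∑ t ∈ (tri G).attach, leave (G \ sides t.1)) / ((tri G).card : ℝ)
  else (G.card : ℝ)
termination_by G.card
decreasing_by exact card_removed_lt t.2

/-- The edge set of the complete graph on `n` vertices. -/
def complete (n : ℕ) : Finset (Finset (Fin n)) := univ.powersetCard 2

end Vale.Agent.P046
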