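import Mathlib

/-! P046: the saturating potential shape and the pointwise inequality for one triangle. -/

namespace Vale.Agent.P046

/-- The potential shape: `z²/(1+z)` above zero, `z²` on `[-1/10,0]`, linear below. -/
noncomputable def phi (z : ℝ) : ℝ :=
  if 0 ≤ z then z ^ 2 / (1 + z) else if -(1/10) ≤ z then z ^ 2 else -z / 5 - 1 / 100

/-- The derivative of `phi`. -/
noncomputable def dphi (z : ℝ) : ℝ :=
  if 0 ≤ z then 1 - 1 / (1 + z) ^ 2 else if -(1/10) ≤ z then 2 * z else -(1/5)

theorem phi_nonneg (z : ℝ) : 0 ≤ phi z := by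
  unfold phi
  split_ifs with h1 h2
  · positivity
  · positivity
  · linarith

theorem phi_zero : phi 0 = 0 := by simp [phi]

theorem dphi_ge (z : ℝ) : -(1/5) ≤ dphi z := by
  unfold dphi
  split_ifs with h1 h2
  · have : 1 / (1 + z) ^ 2 ≤ 1 := by
      rw [div_le_one (by positivity)]; nlinarith
    linarith
  · linarith
  · exact le_rfl

theorem dphi_le (z : ℝ) : dphi z ≤ 1 := by
  unfold dphi
  split_ifs with h1 h2
  · have : 0 ≤ 1 / (1 + z) ^ 2 := by positivity
    linarith
  · linarith
  · norm_num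

private noncomputable def cubic (z : ℝ) : ℝ := if 0 ≤ z then z ^ 3 / (1 + z) else 0

private noncomputable def dcubic (z : ℝ) : ℝ :=
  if 0 ≤ z then z ^ 2 * (3 + 2 * z) / (1 + z) ^ 2 else 0

private noncomputable def left (z : ℝ) : ℝ := if z < -(1/10) then (z + 1/10) ^ 2 else 0

private noncomputable def dleft (z : ℝ) : ℝ := if z < -(1/10) then 2 * (z + 1/10) else 0

private theorem phi_split (z : ℝ) : phi z = z ^ 2 - cubic z - left z := by
  unfold phi cubic left
  split_ifs with h1 h2 h3 h4 <;> try linarith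
  field_simp; ring

private theorem dphi_split (z : ℝ) : dphi z = 2 * z - dcubic z - dleft z := by
  unfold dphi dcubic dleft
  split_ifs with h1 h2 h3 h4 <;> try linarith
  field_simp
  ring

private theorem cubic_tangent (z w : ℝ) : cubic z + dcubic z * (w - z) ≤ cubic w := by
  unfold cubic dcubic
  split_ifs with hz hw hw
  · rw [div_mul_eq_mul_div, div_add_div _ _ (by positivity) (by positivity),
      div_le_div_iff₀ (by positivity) (by positivity)]
    nlinarith [mul_nonneg (sq_nonneg (w - z)) (show 0 ≤ (w + 2 * z + 2 * w * z + z ^ 2 + w * z ^ 2) * (1 + z) by positivity),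
      mul_nonneg hz hw]
  · rw [div_mul_eq_mul_div, div_add_div _ _ (by positivity) (by positivity),
      div_le_iff₀ (by positivity), zero_mul]
    push Not at hw
    nlinarith [mul_nonneg (mul_nonneg (sq_nonneg z) (show 0 ≤ (1 + z) by positivity))
      (mul_nonneg (show 0 ≤ 3 + 2 * z by positivity) (show 0 ≤ -w by linarith)),
      mul_nonneg (pow_nonneg hz 3) (show 0 ≤ (1 + z) * (2 + z) by positivity)]
  · simpa using div_nonneg (pow_nonneg hw 3) (by linarith)
  · simp

private theorem left_tangent (z w : ℝ) : left z + dleft z * (w - z) ≤ left w := by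
  unfold left dleft
  split_ifs with hz hw hw
  · nlinarith [sq_nonneg (w - z)]
  · nlinarith [mul_nonneg (show 0 ≤ -(z + 1/10) by linarith) (show 0 ≤ w + 1/10 by linarith),
      sq_nonneg (z + 1/10)]
  · nlinarith [sq_nonneg (w + 1/10)]
  · simp

theorem phi_step (z h : ℝ) : phi (z + h) ≤ phi z + dphi z * h + h ^ 2 := by
  rw [phi_split, phi_split, dphi_split]
  have h1 := cubic_tangent z (z + h)
  have h2 := left_tangent z (z + h)
  rw [add_sub_cancel_left] at h1 h2
  nlinarith

/-- `|z| ≤ ε + phi z / ε` for negative `z`. -/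
theorem neg_le_phi {z ε : ℝ} (hε : 0 < ε) (hε' : ε ≤ 1/10) :
    -z ≤ ε + phi z / ε := by
  have hp : 0 ≤ phi z / ε := div_nonneg (phi_nonneg z) hε.le
  rcases le_or_gt (-z) ε with h | h
  · linarith
  have hz0 : z < 0 := by linarith
  rw [← sub_le_iff_le_add', le_div_iff₀ hε]
  unfold phi
  rw [if_neg (not_le.2 hz0)]
  split_ifs with h2
  · nlinarith [sq_nonneg (-z - ε)]
  · nlinarith [mul_nonneg (show 0 ≤ 1/10 - ε by linarith) (show 0 ≤ -z - 1/10 by linarith)]

/-- The summand of one side `y` of a triangle with side sum `S`. -/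
noncomputable def term (y S : ℝ) : ℝ :=
  phi (y - 1) * (1 + 1 / y) + dphi (y - 1) * (S - y - 2)

/-- The part of `term` independent of the other two sides. -/
private noncomputable def own (z : ℝ) : ℝ := phi z * (2 + z) / (1 + z) - z * dphi z

private theorem term_eq {y S : ℝ} (hy : 0 < y) :
    term y S = own (y - 1) + dphi (y - 1) * (S - 3) := by
  unfold term own
  have : 1 + (y - 1) = y := by ring
  rw [this]
  field_simp
  ring

/-- The negative part, capped. -/
private noncomputable def bneg (z : ℝ) : ℝ := min (max (-z) 0) (1/10)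

/-- The excess of the negative part. -/
private noncomputable def exc (z : ℝ) : ℝ := max (-z - 1/10) 0

private noncomputable def dpos (z : ℝ) : ℝ := 1 - 1 / (1 + max z 0) ^ 2

private theorem dphi_eq (z : ℝ) : dphi z = dpos z - 2 * bneg z := by
  unfold dphi dpos bneg
  split_ifs with h1 h2
  · rw [max_eq_left h1, max_eq_right (show -z ≤ 0 by linarith)]; norm_num
  · rw [max_eq_right (show z ≤ 0 by linarith), max_eq_left (show 0 ≤ -z by linarith),
      min_eq_left (by linarith)]; ring
  · rw [max_eq_right (show z ≤ 0 by linarith), max_eq_left (show 0 ≤ -z by linarith),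
      min_eq_right (by linarith)]; ring

private theorem own_ge_cube {z : ℝ} (hz : -1 < z) : bneg z ^ 3 / (1 - bneg z) ≤ own z := by
  have hz1 : (0:ℝ) < 1 + z := by linarith
  unfold own phi dphi bneg
  split_ifs with h1 h2
  · rw [max_eq_right (show -z ≤ 0 by linarith)]
    norm_num
    apply le_of_eq
    field_simp
    ring
  · rw [max_eq_left (show 0 ≤ -z by linarith), min_eq_left (by linarith)]
    apply le_of_eq
    rw [sub_neg_eq_add]
    field_simp
    ring
  · rw [max_eq_left (show 0 ≤ -z by linarith), min_eq_right (by linarith)]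
    rw [le_sub_iff_add_le, le_div_iff₀ hz1]
    nlinarith

private theorem own_ge_exc {z : ℝ} (hz : -1 < z) : exc z ^ 2 ≤ own z := by
  have hz1 : (0:ℝ) < 1 + z := by linarith
  rcases le_or_gt (-(1/10)) z with h | h
  · have e : exc z = 0 := max_eq_right (by linarith)
    rw [e]
    refine le_trans ?_ (own_ge_cube hz)
    have hb : 0 ≤ bneg z := le_min (le_max_right _ _) (by norm_num)
    have hb' : bneg z ≤ 1/10 := min_le_right _ _
    have : (0:ℝ) ≤ bneg z ^ 3 / (1 - bneg z) := div_nonneg (pow_nonneg hb 3) (by linarith)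
    simpa using this
  · have e : exc z = -z - 1/10 := max_eq_left (by linarith)
    rw [e]
    unfold own phi dphi
    rw [if_neg (by linarith), if_neg (by linarith), if_neg (by linarith), if_neg (by linarith),
      le_sub_iff_add_le, le_div_iff₀ hz1]
    have e0 : 0 ≤ -z - 1/10 := by linarith
    have key : (-z - 1/10) * (9/10 - (-z - 1/10)) ≤ 21/100 := by
      nlinarith [sq_nonneg (-z - 1/10 - 9/20)]
    nlinarith [mul_le_mul_of_nonneg_left key e0]

private theorem dpos_nonneg (z : ℝ) : 0 ≤ dpos z := by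
  have h : (1:ℝ) ≤ (1 + max z 0) ^ 2 := by nlinarith [le_max_right z 0]
  have : 1 / (1 + max z 0) ^ 2 ≤ 1 := by rw [div_le_one (by positivity)]; exact h
  unfold dpos; linarith

private theorem dpos_le (z : ℝ) : dpos z ≤ 2 * max z 0 := by
  unfold dpos
  rw [sub_le_iff_le_add, ← sub_le_iff_le_add', le_div_iff₀ (by positivity)]
  nlinarith [le_max_right z 0, pow_nonneg (le_max_right z 0) 3, sq_nonneg (max z 0)]

private theorem sat_add {a b : ℝ} (ha : 0 ≤ a) (hb : 0 ≤ b) :
    1 - 1 / (1 + (a + b)) ^ 2 ≤ (1 - 1 / (1 + a) ^ 2) + (1 - 1 / (1 + b) ^ 2) := by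
  have h1 : 1 + a + b ≤ (1 + a) * (1 + b) := by nlinarith
  have hu : (0:ℝ) < 1 + a := by linarith
  have hv : (0:ℝ) < 1 + b := by linarith
  have hw : (0:ℝ) < 1 + (a + b) := by linarith
  have k1 : 1 / (1 + a) + 1 / (1 + b) ≤ 1 + 1 / (1 + (a + b)) := by
    rw [div_add_div _ _ hu.ne' hv.ne', ← sub_nonneg]
    have e : 1 + 1 / (1 + (a + b)) - (1 * (1 + b) + (1 + a) * 1) / ((1 + a) * (1 + b))
        = a * b * (2 + a + b) / ((1 + a) * (1 + b) * (1 + (a + b))) := by
      field_simp; ring
    rw [e]; positivity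
  have k2 : 1 / (1 + (a + b)) ≤ 1 / (1 + a) := one_div_le_one_div_of_le hu (by linarith)
  have k3 : 1 / (1 + (a + b)) ≤ 1 / (1 + b) := one_div_le_one_div_of_le hv (by linarith)
  have sq : ∀ x : ℝ, 1 / x ^ 2 = (1 / x) ^ 2 := fun x => by rw [div_pow, one_pow]
  rw [sq, sq, sq]
  nlinarith [mul_nonneg (sub_nonneg.2 k2) (sub_nonneg.2 k3), one_div_nonneg.2 hw.le,
    one_div_le_one_div_of_le one_pos (show (1:ℝ) ≤ 1 + a by linarith),
    one_div_le_one_div_of_le one_pos (show (1:ℝ) ≤ 1 + b by linarith)]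

private theorem scalar_key {A s : ℝ} (hs0 : 0 ≤ s) (hs : s ≤ 1/5) (hA : s < A) :
    (A - s) * (2 * s * (1 + A) ^ 2 - A * (2 + A)) * (1 - s / 2) ≤ s ^ 3 / 4 * (1 + A) ^ 2 := by
  rcases le_or_gt (2 * s * (1 + A) ^ 2 - A * (2 + A)) 0 with h | h
  · have : (A - s) * (2 * s * (1 + A) ^ 2 - A * (2 + A)) * (1 - s / 2) ≤ 0 :=
      mul_nonpos_of_nonpos_of_nonneg (mul_nonpos_of_nonneg_of_nonpos (by linarith) h) (by linarith)
    exact this.trans (by positivity)
  have hA' : A ≤ 3/10 := by nlinarith
  nlinarith [mul_nonneg hs0 (sub_nonneg.2 hs), mul_nonneg (sub_nonneg.2 hA.le) (sub_nonneg.2 hA'),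
    sq_nonneg (A - s - 3/2 * s ^ 2), sq_nonneg (A - s - 3/4 * s ^ 2), sq_nonneg (A - s),
    mul_nonneg (mul_nonneg hs0 hs0) (sub_nonneg.2 hA'),
    mul_nonneg (mul_nonneg hs0 (sub_nonneg.2 hA.le)) (sub_nonneg.2 hs)]

private theorem bneg_nonneg (z : ℝ) : 0 ≤ bneg z := le_min (le_max_right _ _) (by norm_num)

private theorem bneg_le (z : ℝ) : bneg z ≤ 1/10 := min_le_right _ _

private theorem bneg_le_max (z : ℝ) : bneg z ≤ max (-z) 0 := min_le_left _ _

private theorem max_sub (z : ℝ) : z = max z 0 - max (-z) 0 := by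
  rcases le_total 0 z with h | h
  · rw [max_eq_left h, max_eq_right (by linarith)]; ring
  · rw [max_eq_right h, max_eq_left (by linarith)]; ring

private theorem neg_le_parts (z : ℝ) : -z ≤ exc z + bneg z - max z 0 := by
  unfold exc bneg
  rcases le_total 0 z with h | h
  · rw [max_eq_left h, max_eq_right (show -z - 1/10 ≤ 0 by linarith),
      max_eq_right (show -z ≤ 0 by linarith)]
    norm_num
  · rw [max_eq_right h, max_eq_left (show 0 ≤ -z by linarith)]
    rcases le_total (-z) (1/10) with h' | h'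
    · rw [min_eq_left h', max_eq_right (show -z - 1/10 ≤ 0 by linarith)]; linarith
    · rw [min_eq_right h', max_eq_left (show 0 ≤ -z - 1/10 by linarith)]; linarith

private theorem bneg_pos {z : ℝ} (hz : 0 < z) : bneg z = 0 := by
  rw [bneg, max_eq_right (show -z ≤ 0 by linarith)]; norm_num

private theorem exc_pos {z : ℝ} (hz : 0 < z) : exc z = 0 := max_eq_right (by linarith)

private theorem own_nonneg {z : ℝ} (hz : -1 < z) : 0 ≤ own z :=
  (sq_nonneg _).trans (own_ge_exc hz)

private theorem two {x y : ℝ} (hx : 0 ≤ x) (hx' : x ≤ 1/10) (hy : 0 ≤ y) (hy' : y ≤ 1/10) :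
    (x + y) ^ 3 / 4 / (1 - (x + y) / 2) ≤ x ^ 3 / (1 - x) + y ^ 3 / (1 - y) := by
  rw [div_add_div _ _ (by linarith) (by linarith), div_div,
    div_le_div_iff₀ (by nlinarith) (by nlinarith)]
  nlinarith [mul_nonneg (sq_nonneg (x - y)) (add_nonneg hx hy),
    mul_nonneg (mul_nonneg (sq_nonneg (x - y)) (add_nonneg hx hy))
      (show 0 ≤ 1/5 - (x + y) by linarith),
    mul_nonneg (mul_nonneg (sq_nonneg (x - y)) (sq_nonneg (x + y)))
      (show 0 ≤ 1/5 - (x + y) by linarith),
    mul_nonneg (mul_nonneg (sq_nonneg (x - y)) hx) hy]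

private theorem pos_case {za zb zc : ℝ} (ha : -1 < za) (hb : -1 < zb) (hc : -1 < zc)
    (hZ : 0 ≤ za + zb + zc)
    (hD : dpos za + dpos zb + dpos zc ≤ 2 * (bneg za + bneg zb + bneg zc)) :
    0 ≤ own za + own zb + own zc
      + (za + zb + zc) * (dpos za + dpos zb + dpos zc - 2 * (bneg za + bneg zb + bneg zc)) := by
  set s := bneg za + bneg zb + bneg zc with hs
  set A := max za 0 + max zb 0 + max zc 0 with hA
  have hs0 : 0 ≤ s := by linarith [bneg_nonneg za, bneg_nonneg zb, bneg_nonneg zc]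
  have hZA : za + zb + zc ≤ A - s := by
    linarith [bneg_le_max za, bneg_le_max zb, bneg_le_max zc, max_sub za, max_sub zb, max_sub zc]
  have q := own_nonneg ha; have q' := own_nonneg hb; have q'' := own_nonneg hc
  rcases eq_or_lt_of_le hZ with h0 | h0
  · rw [← h0]; linarith
  have hAs : s < A := by linarith
  have hDA : 1 - 1 / (1 + A) ^ 2 ≤ dpos za + dpos zb + dpos zc := by
    have p1 := sat_add (le_max_right za 0) (le_max_right zb 0)
    have p2 := sat_add (add_nonneg (le_max_right za 0) (le_max_right zb 0)) (le_max_right zc 0)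
    simp only [dpos, hA]; linarith
  have hq : s ^ 3 / 4 / (1 - s / 2) ≤ own za + own zb + own zc ∧ s ≤ 1/5 := by
    have ga := own_ge_cube ha; have gb := own_ge_cube hb; have gc := own_ge_cube hc
    rcases (show 0 < za ∨ 0 < zb ∨ 0 < zc by by_contra hh; push Not at hh; linarith) with h | h | h
    · rw [show s = bneg zb + bneg zc by rw [hs, bneg_pos h]; ring]
      exact ⟨(two (bneg_nonneg _) (bneg_le _) (bneg_nonneg _) (bneg_le _)).trans (by linarith),
        by linarith [bneg_le zb, bneg_le zc]⟩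
    · rw [show s = bneg za + bneg zc by rw [hs, bneg_pos h]; ring]
      exact ⟨(two (bneg_nonneg _) (bneg_le _) (bneg_nonneg _) (bneg_le _)).trans (by linarith),
        by linarith [bneg_le za, bneg_le zc]⟩
    · rw [show s = bneg za + bneg zb by rw [hs, bneg_pos h]; ring]
      exact ⟨(two (bneg_nonneg _) (bneg_le _) (bneg_nonneg _) (bneg_le _)).trans (by linarith),
        by linarith [bneg_le za, bneg_le zb]⟩
  have hA0 : 0 < 1 + A := by linarith
  have key := scalar_key hs0 hq.2 hAs
  have e : 2 * s - (1 - 1 / (1 + A) ^ 2)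
      = (2 * s * (1 + A) ^ 2 - A * (2 + A)) / (1 + A) ^ 2 := by field_simp; ring
  have h1 : (A - s) * (2 * s - (1 - 1 / (1 + A) ^ 2)) ≤ s ^ 3 / 4 / (1 - s / 2) := by
    rw [e, ← mul_div_assoc, div_le_div_iff₀ (by positivity) (by linarith [hq.2])]
    linarith
  have hmono : (za + zb + zc) * (2 * s - (dpos za + dpos zb + dpos zc))
      ≤ (A - s) * (2 * s - (1 - 1 / (1 + A) ^ 2)) :=
    mul_le_mul hZA (by linarith) (by linarith) (by linarith)
  linarith [hq.1]

private theorem neg_case {za zb zc : ℝ} (ha : -1 < za) (hb : -1 < zb) (hc : -1 < zc)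
    (hZ : za + zb + zc ≤ 0)
    (hD : 2 * (bneg za + bneg zb + bneg zc) ≤ dpos za + dpos zb + dpos zc) :
    0 ≤ own za + own zb + own zc
      + (za + zb + zc) * (dpos za + dpos zb + dpos zc - 2 * (bneg za + bneg zb + bneg zc)) := by
  set e := exc za + exc zb + exc zc with he
  set A := max za 0 + max zb 0 + max zc 0
  set s := bneg za + bneg zb + bneg zc with hs
  set D := dpos za + dpos zb + dpos zc with hDdef
  have q := own_nonneg ha; have q' := own_nonneg hb; have q'' := own_nonneg hc
  have hx : -(za + zb + zc) ≤ e + s - A := by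
    linarith [neg_le_parts za, neg_le_parts zb, neg_le_parts zc]
  have hD2 : D - 2 * s ≤ 2 * A - 2 * s := by linarith [dpos_le za, dpos_le zb, dpos_le zc]
  have hprod : -(za + zb + zc) * (D - 2 * s) ≤ e ^ 2 / 2 := by
    have h1 : -(za + zb + zc) * (D - 2 * s) ≤ (e + s - A) * (2 * A - 2 * s) :=
      mul_le_mul hx hD2 (by linarith) (by linarith)
    nlinarith [sq_nonneg (e - 2 * (A - s))]
  have ea := own_ge_exc ha; have eb := own_ge_exc hb; have ec := own_ge_exc hc
  rcases lt_or_ge 0 za with h | h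
  · have : e ^ 2 / 2 ≤ exc za ^ 2 + exc zb ^ 2 + exc zc ^ 2 := by
      rw [he, exc_pos h]; nlinarith [sq_nonneg (exc zb - exc zc)]
    linarith
  rcases lt_or_ge 0 zb with h' | h'
  · have : e ^ 2 / 2 ≤ exc za ^ 2 + exc zb ^ 2 + exc zc ^ 2 := by
      rw [he, exc_pos h']; nlinarith [sq_nonneg (exc za - exc zc)]
    linarith
  rcases lt_or_ge 0 zc with h'' | h''
  · have : e ^ 2 / 2 ≤ exc za ^ 2 + exc zb ^ 2 + exc zc ^ 2 := by
      rw [he, exc_pos h'']; nlinarith [sq_nonneg (exc za - exc zb)]
    linarith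
  have h0 : D = 0 := by
    simp [hDdef, dpos, max_eq_right h, max_eq_right h', max_eq_right h'']
  have : s = 0 := by linarith [bneg_nonneg za, bneg_nonneg zb, bneg_nonneg zc]
  rw [h0, this]; linarith

variable {a b c : ℝ}

/-- The triangle inequality for the potential. -/
theorem terms_nonneg (ha : 0 < a) (hb : 0 < b) (hc : 0 < c) :
    0 ≤ term a (a + b + c) + term b (a + b + c) + term c (a + b + c) := by
  rw [term_eq ha, term_eq hb, term_eq hc, dphi_eq, dphi_eq, dphi_eq]
  have hZ : a + b + c - 3 = (a - 1) + (b - 1) + (c - 1) := by ring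
  rw [hZ]
  have ha' : -1 < a - 1 := by linarith
  have hb' : -1 < b - 1 := by linarith
  have hc' : -1 < c - 1 := by linarith
  generalize a - 1 = za, b - 1 = zb, c - 1 = zc at ha' hb' hc' ⊢
  have q := own_nonneg ha'; have q' := own_nonneg hb'; have q'' := own_nonneg hc'
  have goal : 0 ≤ own za + own zb + own zc
      + (za + zb + zc) * (dpos za + dpos zb + dpos zc - 2 * (bneg za + bneg zb + bneg zc)) := by
    rcases le_total 0 (za + zb + zc) with hZ0 | hZ0 <;>
      rcases le_total (2 * (bneg za + bneg zb + bneg zc))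
        (dpos za + dpos zb + dpos zc) with hDs | hDs
    · linarith [mul_nonneg hZ0 (sub_nonneg.2 hDs)]
    · exact pos_case ha' hb' hc' hZ0 hDs
    · exact neg_case ha' hb' hc' hZ0 hDs
    · linarith [mul_nonneg_of_nonpos_of_nonpos hZ0 (sub_nonpos.2 hDs)]
  linarith

/-- For a large side sum the triangle inequality has linear slack. -/
theorem terms_ge_linear (ha : 0 < a) (hb : 0 < b) (hc : 0 < c) :
    (a + b + c - 12) / 2 ≤ term a (a + b + c) + term b (a + b + c) + term c (a + b + c) := by
  rcases le_or_gt (a + b + c) 12 with h | h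
  · linarith [terms_nonneg ha hb hc]
  have q0 : ∀ {y : ℝ}, 0 < y → 0 ≤ own (y - 1) := fun hy =>
    (sq_nonneg _).trans (own_ge_exc (by linarith))
  have big : ∀ {y : ℝ}, 4 ≤ y → 15/16 ≤ dphi (y - 1) := by
    intro y hy
    rw [dphi, if_pos (by linarith)]
    have : 1 / (1 + (y - 1)) ^ 2 ≤ 1 / 16 := one_div_le_one_div_of_le (by norm_num) (by nlinarith)
    linarith
  rw [term_eq ha, term_eq hb, term_eq hc]
  have hsum : 1/2 ≤ dphi (a - 1) + dphi (b - 1) + dphi (c - 1) := by
    rcases le_or_gt 4 a with h1 | h1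
    · linarith [big h1, dphi_ge (b - 1), dphi_ge (c - 1)]
    rcases le_or_gt 4 b with h2 | h2
    · linarith [big h2, dphi_ge (a - 1), dphi_ge (c - 1)]
    linarith [big (show 4 ≤ c by linarith), dphi_ge (a - 1), dphi_ge (b - 1)]
  nlinarith [q0 ha, q0 hb, q0 hc,
    mul_le_mul_of_nonneg_left hsum (show 0 ≤ a + b + c - 3 by linarith)]

end Vale.Agent.P046
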