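import Vale.Agent.P046.Comb
import Vale.Agent.P046.Shape

/-! P046: one step of the process makes the potential grow only by an error of order `m Y²/Q`. -/

open Finset

namespace Vale.Agent.P046

variable {α : Type*} [DecidableEq α] [Fintype α]

/-- The potential: squared, saturated deviations of the edge degrees from the scale `Y`. -/
noncomputable def pot (G : Finset (Finset α)) (Y : ℝ) : ℝ :=
  Y ^ 2 * ∑ e ∈ G, phi ((deg G e : ℝ) / Y - 1)

theorem pot_nonneg (G : Finset (Finset α)) (Y : ℝ) : 0 ≤ pot G Y :=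
  mul_nonneg (sq_nonneg _) (sum_nonneg fun _ _ => phi_nonneg _)

variable {G : Finset (Finset α)} {Y : ℝ}

private theorem zeta_pos (hY : 0 < Y) {t i : Finset α} (ht : t ∈ tri G) (hi : i ∈ sides t) :
    (0 : ℝ) < deg G i / Y :=
  div_pos (by exact_mod_cast deg_pos ht hi) hY

private theorem terms_bounds (hY : 0 < Y) {t : Finset α} (ht : t ∈ tri G) :
    0 ≤ ∑ i ∈ sides t, term (deg G i / Y) (∑ j ∈ sides t, (deg G j : ℝ) / Y) ∧
    ((∑ j ∈ sides t, (deg G j : ℝ) / Y) - 12) / 2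
      ≤ ∑ i ∈ sides t, term (deg G i / Y) (∑ j ∈ sides t, (deg G j : ℝ) / Y) := by
  obtain ⟨a, b, c, hab, hac, hbc, e⟩ := card_eq_three.1 (card_sides ht)
  have sum3 : ∀ f : Finset α → ℝ, ∑ i ∈ sides t, f i = f a + f b + f c := fun f => by
    rw [e, sum_insert (by simp [hab, hac]), sum_insert (by simp [hbc]), sum_singleton, add_assoc]
  have ha := zeta_pos hY ht (show a ∈ sides t by simp [e])
  have hb := zeta_pos hY ht (show b ∈ sides t by simp [e])
  have hc := zeta_pos hY ht (show c ∈ sides t by simp [e])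
  rw [sum3, sum3]
  exact ⟨terms_nonneg ha hb hc, terms_ge_linear ha hb hc⟩

/-- The change of one summand when the scale drops to `Y/(1+s)`. -/
private theorem point {t e : Finset α} (he : e ∉ sides t) (ht : t ∈ tri G) (hY : 0 < Y) {s : ℝ}
    (hs : 0 ≤ s) :
    phi ((deg (G \ sides t) e : ℝ) / (Y / (1 + s)) - 1)
      ≤ phi (deg G e / Y - 1) + s * (dphi (deg G e / Y - 1) * (deg G e / Y))
        - (1 + s) / Y * ((dkill G t e : ℝ) * dphi (deg G e / Y - 1))
        + 2 * s ^ 2 * ((deg G e : ℝ) / Y) ^ 2 + 6 * (1 + s) ^ 2 / Y ^ 2 * (dkill G t e : ℝ) := by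
  set d : ℝ := (dkill G t e : ℝ) with hd
  set z : ℝ := (deg G e : ℝ) / Y
  set u : ℝ := (1 + s) / Y * d with hu
  have h1 : (deg (G \ sides t) e : ℝ) + d = deg G e := by rw [hd]; exact_mod_cast deg_sdiff he
  have h2 : d ≤ 3 := by rw [hd]; exact_mod_cast dkill_le ht he
  have h3 : 0 ≤ d := by rw [hd]; positivity
  have e1 : (deg (G \ sides t) e : ℝ) / (Y / (1 + s)) - 1 = (z - 1) + (s * z - u) := by
    rw [show (deg (G \ sides t) e : ℝ) = deg G e - d by linarith]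
    simp only [z, hu]; field_simp; ring
  rw [e1]
  refine (phi_step _ _).trans ?_
  have h4 : u ^ 2 ≤ 3 * (1 + s) ^ 2 / Y ^ 2 * d := by
    rw [hu, mul_pow, div_pow]
    have : d ^ 2 ≤ 3 * d := by nlinarith
    calc (1 + s) ^ 2 / Y ^ 2 * d ^ 2 ≤ (1 + s) ^ 2 / Y ^ 2 * (3 * d) :=
          mul_le_mul_of_nonneg_left this (by positivity)
      _ = _ := by ring
  have h5 : (s * z - u) ^ 2 ≤ 2 * s ^ 2 * z ^ 2 + 2 * u ^ 2 := by nlinarith [sq_nonneg (s * z + u)]
  have h6 : dphi (z - 1) * (s * z - u)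
      = s * (dphi (z - 1) * z) - (1 + s) / Y * (d * dphi (z - 1)) := by rw [hu]; ring
  have h7 : 6 * (1 + s) ^ 2 / Y ^ 2 * d = 2 * (3 * (1 + s) ^ 2 / Y ^ 2 * d) := by ring
  linarith

/-- The degree of an edge in units of `Y`. -/
noncomputable def zeta (G : Finset (Finset α)) (Y : ℝ) (e : Finset α) : ℝ := (deg G e : ℝ) / Y

/-- The side sum of a triangle in units of `Y`. -/
noncomputable def side (G : Finset (Finset α)) (Y : ℝ) (t : Finset α) : ℝ :=
  ∑ j ∈ sides t, zeta G Y j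

private theorem zeta_nonneg (hY : 0 < Y) (e : Finset α) : 0 ≤ zeta G Y e :=
  div_nonneg (Nat.cast_nonneg _) hY.le

private theorem side_sum_eq (hY : 0 < Y) :
    ∑ t ∈ tri G, side G Y t = Y * ∑ e ∈ G, zeta G Y e ^ 2 := by
  simp only [side]
  rw [sum_tri_sides, mul_sum]
  refine sum_congr rfl fun e _ => ?_
  simp only [zeta]; field_simp

private theorem side_sum_le (hY : 0 < Y) :
    ∑ t ∈ tri G, side G Y t
        ≤ 2 * (∑ t ∈ tri G, ∑ i ∈ sides t, term (zeta G Y i) (side G Y t))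
          + 12 * ((tri G).card : ℝ) ∧
    ((tri G).card : ℝ) ≤ 6 * ((G.card : ℝ) * Y)
        + (∑ t ∈ tri G, ∑ i ∈ sides t, term (zeta G Y i) (side G Y t)) / 6 := by
  set P : ℝ := ∑ t ∈ tri G, ∑ i ∈ sides t, term (zeta G Y i) (side G Y t) with hP
  set T : ℝ := ∑ t ∈ tri G, side G Y t with hT
  set Q : ℝ := ((tri G).card : ℝ) with hQ
  have hSP : T ≤ 2 * P + 12 * Q := by
    have h : ∑ t ∈ tri G, (side G Y t - 12) / 2 ≤ P :=
      sum_le_sum fun t ht => (terms_bounds hY ht).2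
    rw [← sum_div, sum_sub_distrib, sum_const, nsmul_eq_mul, ← hT, ← hQ] at h
    linarith
  refine ⟨hSP, ?_⟩
  have h : 3 * Q ≤ 8 * ((G.card : ℝ) * Y) + T / 8 := by
    rw [hQ, ← sum_deg, hT, side_sum_eq hY]
    calc ∑ e ∈ G, (deg G e : ℝ) ≤ ∑ e ∈ G, Y * (8 + zeta G Y e ^ 2 / 8) :=
          sum_le_sum fun e _ => by
            have : (deg G e : ℝ) = Y * zeta G Y e := by simp only [zeta]; field_simp
            rw [this]
            exact mul_le_mul_of_nonneg_left (by nlinarith [sq_nonneg (zeta G Y e - 4)]) hY.le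
      _ = _ := by rw [← mul_sum, sum_add_distrib, sum_const, ← sum_div, nsmul_eq_mul]; ring
  linarith [mul_nonneg (Nat.cast_nonneg G.card : (0:ℝ) ≤ _) hY.le]

private theorem sum_kept (f : Finset α → ℝ) :
    ∑ t ∈ tri G, ∑ e ∈ G \ sides t, f e
      = ((tri G).card : ℝ) * (∑ e ∈ G, f e) - ∑ t ∈ tri G, ∑ i ∈ sides t, f i := by
  rw [sum_congr rfl (fun t ht => sum_sdiff_eq_sub (mem_tri.1 ht).2), sum_sub_distrib, sum_const,
    nsmul_eq_mul]

private theorem killed_sum (hY : 0 < Y) :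
    ∑ t ∈ tri G, ∑ e ∈ G \ sides t, (dkill G t e : ℝ) * dphi (zeta G Y e - 1)
      = Y * ((∑ t ∈ tri G, ∑ i ∈ sides t, dphi (zeta G Y i - 1) * side G Y t)
        - (∑ t ∈ tri G, ∑ i ∈ sides t, dphi (zeta G Y i - 1) * zeta G Y i)
        - 2 / Y * ∑ t ∈ tri G, ∑ i ∈ sides t, dphi (zeta G Y i - 1)) := by
  rw [sum_dkill]
  simp only [mul_sum, ← sum_sub_distrib]
  refine sum_congr rfl fun t _ => sum_congr rfl fun i _ => ?_
  simp only [side, zeta, ← sum_div]
  field_simp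

private theorem killed_count (hY : 0 < Y) :
    ∑ t ∈ tri G, ∑ e ∈ G \ sides t, (dkill G t e : ℝ) ≤ 2 * (Y * ∑ t ∈ tri G, side G Y t) := by
  have h := sum_dkill G (fun _ => (1 : ℝ))
  simp only [mul_one, one_mul] at h
  rw [h, mul_sum, mul_sum]
  refine sum_le_sum fun t ht => ?_
  simp only [side, zeta, sum_sub_distrib, sum_const, card_sides ht, ← sum_div, nsmul_eq_mul]
  rw [mul_div_cancel₀ _ hY.ne']
  push_cast
  linarith [sum_nonneg (s := sides t) (fun i _ => (Nat.cast_nonneg (deg G i) : (0:ℝ) ≤ _))]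

private theorem kept_sq (hY : 0 < Y) :
    ∑ t ∈ tri G, ∑ e ∈ G \ sides t, zeta G Y e ^ 2
      ≤ ((tri G).card : ℝ) / Y * ∑ t ∈ tri G, side G Y t := by
  rw [sum_kept, side_sum_eq hY, ← mul_assoc, div_mul_cancel₀ _ hY.ne']
  have : 0 ≤ ∑ t ∈ tri G, ∑ i ∈ sides t, zeta G Y i ^ 2 :=
    sum_nonneg fun t _ => sum_nonneg fun i _ => sq_nonneg _
  linarith

private theorem phi_over (hY : 0 < Y) :
    ∑ t ∈ tri G, ∑ i ∈ sides t, phi (zeta G Y i - 1) / zeta G Y i
      ≤ Y * ∑ e ∈ G, phi (zeta G Y e - 1) := by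
  rw [sum_tri_sides, mul_sum]
  refine sum_le_sum fun e _ => ?_
  rcases Nat.eq_zero_or_pos (deg G e) with h | h
  · rw [h, Nat.cast_zero, zero_mul]; exact mul_nonneg hY.le (phi_nonneg _)
  · refine le_of_eq ?_
    simp only [zeta]; field_simp

private theorem dphi_sums (hY : 0 < Y) :
    ∑ t ∈ tri G, ∑ i ∈ sides t, dphi (zeta G Y i - 1) ≤ 3 * ((tri G).card : ℝ) ∧
    -(3/5) * ∑ t ∈ tri G, side G Y t
      ≤ ∑ t ∈ tri G, ∑ i ∈ sides t, dphi (zeta G Y i - 1) * side G Y t := by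
  constructor
  · refine (sum_le_sum fun t _ => sum_le_sum fun i _ => dphi_le _).trans (le_of_eq ?_)
    rw [sum_congr rfl (fun t ht => show ∑ _i ∈ sides t, (1:ℝ) = 3 by simp [card_sides ht]),
      sum_const, nsmul_eq_mul, mul_comm]
  · rw [mul_sum]
    refine sum_le_sum fun t ht => ?_
    have h : 0 ≤ side G Y t := sum_nonneg fun j _ => zeta_nonneg hY j
    calc -(3/5) * side G Y t = ∑ _i ∈ sides t, -(1/5) * side G Y t := by
            rw [sum_const, card_sides ht, nsmul_eq_mul]; ring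
      _ ≤ _ := sum_le_sum fun i _ => mul_le_mul_of_nonneg_right (dphi_ge _) h

private theorem terms_expand :
    ∑ t ∈ tri G, ∑ i ∈ sides t, term (zeta G Y i) (side G Y t)
      = (∑ t ∈ tri G, ∑ i ∈ sides t, phi (zeta G Y i - 1))
      + (∑ t ∈ tri G, ∑ i ∈ sides t, phi (zeta G Y i - 1) / zeta G Y i)
      + ((∑ t ∈ tri G, ∑ i ∈ sides t, dphi (zeta G Y i - 1) * side G Y t)
        - (∑ t ∈ tri G, ∑ i ∈ sides t, dphi (zeta G Y i - 1) * zeta G Y i)
        - 2 * ∑ t ∈ tri G, ∑ i ∈ sides t, dphi (zeta G Y i - 1)) := by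
  simp only [mul_sum, ← sum_add_distrib, ← sum_sub_distrib]
  exact sum_congr rfl fun t _ => sum_congr rfl fun i _ => by simp only [term]; ring

/-- The arithmetic of the step. -/
private theorem assemble {Q Y s m T P A B D Fi Fo Φ K1 H1 : ℝ} (hY : 400 ≤ Y) (hm : 0 ≤ m)
    (hQ0 : 0 < Q) (hsQ : s * Q = 2 * Y) (hs0 : 0 ≤ s) (hs : s ≤ 12 / Y)
    (hT : 0 ≤ T) (hP : 0 ≤ P) (hTP : T ≤ 2 * P + 12 * Q) (hQle : Q ≤ 6 * (m * Y) + P / 6)
    (hFo : Fo ≤ Y * Φ) (hD : D ≤ 3 * Q) (hA : -(3/5) * T ≤ A)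
    (hexp : P = Fi + Fo + (A - B - 2 * D)) (hK : K1 ≤ 2 * (Y * T)) (hH : H1 ≤ Q / Y * T) :
    Q * Φ - Fi + s * (Q / Y * D - B) - (1 + s) / Y * (Y * (A - B - 2 / Y * D))
        + 2 * s ^ 2 * H1 + 6 * (1 + s) ^ 2 / Y ^ 2 * K1
      ≤ (Q + Y) * Φ + 6300 * m := by
  have hY0 : 0 < Y := by linarith
  have hs1 : s ≤ 3 / 100 := hs.trans (by rw [div_le_iff₀ hY0]; linarith)
  have e1 : (1 + s) / Y * (Y * (A - B - 2 / Y * D))
      = (1 + s) * (A - B) - 2 * (1 + s) / Y * D := by field_simp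
  have e2 : s * (Q / Y * D - B) = 2 * D - s * B := by
    have : s * (Q / Y) = 2 := by rw [← mul_div_assoc, hsQ]; field_simp
    linear_combination D * this
  have b1 : 2 * (1 + s) / Y * D ≤ 7 / Y * Q := by
    calc 2 * (1 + s) / Y * D ≤ 2 * (1 + s) / Y * (3 * Q) :=
          mul_le_mul_of_nonneg_left hD (by positivity)
      _ = 6 * (1 + s) / Y * Q := by ring
      _ ≤ 7 / Y * Q := by gcongr; linarith
  have b2 : 2 * s ^ 2 * H1 ≤ 48 / Y * T := by
    calc _ ≤ 2 * s ^ 2 * (Q / Y * T) := mul_le_mul_of_nonneg_left hH (by positivity)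
      _ = 4 * s * T := by
        rw [show 2 * s ^ 2 * (Q / Y * T) = 2 * s * (s * Q) / Y * T by ring, hsQ]
        field_simp; ring
      _ ≤ 4 * (12 / Y) * T := by gcongr
      _ = _ := by ring
  have b3 : 6 * (1 + s) ^ 2 / Y ^ 2 * K1 ≤ 13 / Y * T := by
    calc _ ≤ 6 * (1 + s) ^ 2 / Y ^ 2 * (2 * (Y * T)) :=
          mul_le_mul_of_nonneg_left hK (by positivity)
      _ = 12 * (1 + s) ^ 2 / Y * T := by field_simp; ring
      _ ≤ 13 / Y * T := by gcongr; nlinarith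
  have b4 : -(s * A) ≤ 8 / Y * T := by
    calc -(s * A) ≤ s * (3/5 * T) := by nlinarith
      _ ≤ 12 / Y * (3/5 * T) := by gcongr
      _ ≤ 8 / Y * T := by
        rw [← mul_assoc]; gcongr; rw [div_mul_eq_mul_div]; gcongr; norm_num
  have b5 : (69 * T + 7 * Q) / Y ≤ 300 * P / Y + 6300 * m := by
    rw [div_add' _ _ _ hY0.ne']
    exact div_le_div_of_nonneg_right (by linarith [mul_nonneg hm hY0.le]) hY0.le
  have b6 : 300 * P / Y ≤ P := by
    rw [div_le_iff₀ hY0]; nlinarith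
  have b7 : (69 * T + 7 * Q) / Y = 48 / Y * T + 13 / Y * T + 8 / Y * T + 7 / Y * Q := by ring
  rw [e1, e2]
  linarith

theorem inner_step (hY : 400 ≤ Y) (hQ : G.card * Y / 2 ≤ 3 * ((tri G).card : ℝ))
    (hne : (tri G).Nonempty) :
    ∑ t ∈ tri G, ∑ e ∈ G \ sides t,
        phi ((deg (G \ sides t) e : ℝ) / (Y / (1 + 2 * Y / (tri G).card)) - 1)
      ≤ ((tri G).card + Y) * (∑ e ∈ G, phi (zeta G Y e - 1)) + 6300 * G.card := by
  have hY0 : 0 < Y := by linarith
  set Q : ℝ := ((tri G).card : ℝ) with hQd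
  have hQ0 : 0 < Q := by rw [hQd]; exact_mod_cast card_pos.2 hne
  set m : ℝ := (G.card : ℝ) with hmd
  have hdm : 3 * Q ≤ m * (m / 2) := by
    rw [hQd, ← sum_deg]
    refine (sum_le_sum fun e _ => (show (deg G e : ℝ) ≤ m / 2 by
      rw [le_div_iff₀ two_pos, mul_comm, hmd]; exact_mod_cast two_deg_le e)).trans ?_
    simp [hmd]
  have hm0 : 0 < m := by
    rcases (show 0 ≤ m by rw [hmd]; positivity).eq_or_lt with h | h
    · rw [← h] at hdm; linarith
    · exact h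
  have hYm : Y ≤ m := by nlinarith
  set s : ℝ := 2 * Y / Q with hsd
  have hs0 : 0 ≤ s := by positivity
  have hsQ : s * Q = 2 * Y := by rw [hsd]; field_simp
  have hs : s ≤ 12 / Y := by
    rw [hsd, div_le_div_iff₀ hQ0 hY0]; nlinarith
  refine (sum_le_sum fun t ht => sum_le_sum fun e he =>
    point (mem_sdiff.1 he).2 ht hY0 hs0).trans ?_
  simp only [← show ∀ e, zeta G Y e = (deg G e : ℝ) / Y from fun _ => rfl]
  simp only [sum_add_distrib, sum_sub_distrib, ← mul_sum]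
  rw [sum_kept, sum_kept, killed_sum hY0]
  have lin : Q * ∑ e ∈ G, dphi (zeta G Y e - 1) * zeta G Y e
      = Q / Y * ∑ t ∈ tri G, ∑ i ∈ sides t, dphi (zeta G Y i - 1) := by
    rw [sum_tri_sides, mul_sum, mul_sum]
    refine sum_congr rfl fun e _ => ?_
    simp only [zeta]; ring
  rw [← hQd, lin]
  exact assemble hY hm0.le hQ0 hsQ hs0 hs
    (sum_nonneg fun t _ => sum_nonneg fun j _ => zeta_nonneg hY0 j)
    (sum_nonneg fun t ht => (terms_bounds hY0 ht).1) (side_sum_le hY0).1 (side_sum_le hY0).2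
    (phi_over hY0) (dphi_sums hY0).1 (dphi_sums hY0).2 terms_expand (killed_count hY0)
    (kept_sq hY0)

/-- One step: the average potential at the lowered scale. -/
theorem pot_step (hY : 400 ≤ Y) (hQ : G.card * Y / 2 ≤ 3 * ((tri G).card : ℝ))
    (hne : (tri G).Nonempty) :
    (∑ t ∈ tri G, pot (G \ sides t) (Y / (1 + 2 * Y / (tri G).card)))
        * (1 + 2 * Y / (tri G).card) ^ 2
      ≤ pot G Y * ((tri G).card + Y) + 6300 * G.card * Y ^ 2 := by
  have h1 : (1 : ℝ) + 2 * Y / (tri G).card ≠ 0 := by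
    have : 0 ≤ 2 * Y / ((tri G).card : ℝ) := by positivity
    linarith
  unfold pot
  rw [← mul_sum, div_pow, mul_right_comm, div_mul_cancel₀ _ (pow_ne_zero 2 h1)]
  calc _ ≤ Y ^ 2 * (((tri G).card + Y) * (∑ e ∈ G, phi (zeta G Y e - 1)) + 6300 * G.card) :=
        mul_le_mul_of_nonneg_left (inner_step hY hQ hne) (sq_nonneg Y)
    _ = _ := by simp only [zeta]; ring

end Vale.Agent.P046
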