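import Vale.Agent.P046.Step
import Mathlib.Analysis.SpecialFunctions.Log.Basic

/-! P046: the supersolution and the bound `E F_n ≤ C n^{3/2} √(log n)`. -/

open Finset Real

namespace Vale.Agent.P046

variable {α : Type*} [DecidableEq α] [Fintype α]

theorem leave_le_card (G : Finset (Finset α)) : leave G ≤ G.card := by
  induction h : G.card using Nat.strong_induction_on generalizing G with
  | _ k ih =>
    subst h
    rw [leave]
    split_ifs with hne
    · have hQ : (0 : ℝ) < (tri G).card := by exact_mod_cast card_pos.2 hne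
      rw [div_le_iff₀ hQ, sum_attach (tri G) (fun t => leave (G \ sides t))]
      calc ∑ t ∈ tri G, leave (G \ sides t) ≤ ∑ _t ∈ tri G, (G.card : ℝ) :=
            sum_le_sum fun t ht => (ih _ (card_removed_lt ht) _ rfl).trans
              (Nat.cast_le.2 (card_removed_lt ht).le)
        _ = _ := by rw [sum_const, nsmul_eq_mul, mul_comm]
    · exact le_rfl

/-- The coefficient profile of the edge count, at `u = √(M/Y)`. -/
noncomputable def hfun (M L Y : ℝ) : ℝ := 3 - √M / √Y + log (Y / M) / L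

/-- The coefficient profile of the potential. -/
noncomputable def bfun (M Y : ℝ) : ℝ := 800 / √M - 400 / √Y

/-- The supersolution. -/
noncomputable def super (M L : ℝ) (G : Finset (Finset α)) (Y : ℝ) : ℝ :=
  √M / √Y * hfun M L Y * G.card + bfun M Y / (Y * √Y) * pot G Y

variable {M L Y : ℝ}

private theorem bfun_nonneg (hM : 0 < M) (hY : M / 2 ≤ Y) : 0 ≤ bfun M Y := by
  have h1 : 0 < √M := sqrt_pos.2 hM
  have h2 : 0 < √Y := sqrt_pos.2 (by linarith)
  have : √M ≤ 2 * √Y := by
    rw [sqrt_le_left (by positivity), mul_pow, sq_sqrt (by linarith)]; linarith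
  unfold bfun
  rw [sub_nonneg, div_le_div_iff₀ h2 h1]
  linarith

private theorem bfun_le (M Y : ℝ) : bfun M Y ≤ 800 / √M := by
  have : 0 ≤ 400 / √Y := by positivity
  unfold bfun; linarith

private theorem hfun_range (hM : 1 ≤ M) (hL : 1 ≤ L) (hY : M < Y) (hlog : log Y ≤ L) :
    2 ≤ hfun M L Y ∧ hfun M L Y ≤ 4 := by
  have h0 : 0 ≤ √M / √Y := by positivity
  have h1 : √M / √Y ≤ 1 := by
    rw [div_le_one (sqrt_pos.2 (by linarith))]; exact sqrt_le_sqrt hY.le
  have h2 : 0 ≤ log (Y / M) := log_nonneg (by rw [one_le_div (by linarith)]; exact hY.le)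
  have h3 : log (Y / M) ≤ L :=
    (log_le_log (div_pos (by linarith) (by linarith)) (div_le_self (by linarith) hM)).trans hlog
  have h4 : log (Y / M) / L ≤ 1 := by rw [div_le_one (by linarith)]; exact h3
  have h5 : 0 ≤ log (Y / M) / L := div_nonneg h2 (by linarith)
  unfold hfun; constructor <;> linarith

/-- At a scale at most `M` the supersolution dominates the edge count. -/
private theorem super_small (hM : 1 ≤ M) (hL : 1 ≤ L) (hY : M / 2 ≤ Y) (hY' : Y ≤ M)
    (G : Finset (Finset α)) : (G.card : ℝ) ≤ super M L G Y := by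
  have hM0 : 0 < M := by linarith
  have hY0 : 0 < Y := by linarith
  set u := √M / √Y with hu
  have u1 : 1 ≤ u := by
    rw [hu, le_div_iff₀ (sqrt_pos.2 hY0), one_mul]; exact sqrt_le_sqrt hY'
  have u2 : u ≤ 3/2 := by
    rw [hu, div_le_iff₀ (sqrt_pos.2 hY0), sqrt_le_left (by positivity), mul_pow,
      sq_sqrt hY0.le]
    linarith
  have l1 : log (Y / M) ≤ 0 := log_nonpos (by positivity) (by rw [div_le_one hM0]; exact hY')
  have l2 : -(7/10) ≤ log (Y / M) := by
    have : log (1/2) ≤ log (Y / M) :=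
      log_le_log (by norm_num) (by rw [le_div_iff₀ hM0]; linarith)
    rw [one_div, log_inv] at this
    linarith [log_two_lt_d9]
  have l3 : -(7/10) ≤ log (Y / M) / L := by rw [le_div_iff₀ (by linarith)]; linarith
  have hh : 1 ≤ u * hfun M L Y := by
    rw [hfun, ← hu]
    nlinarith [mul_nonneg (sub_nonneg.2 u1) (sub_nonneg.2 u2),
      mul_le_mul_of_nonneg_left l3 (show 0 ≤ u by linarith)]
  have hb : 0 ≤ bfun M Y / (Y * √Y) * pot G Y :=
    mul_nonneg (div_nonneg (bfun_nonneg hM0 hY) (by positivity)) (pot_nonneg G Y)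
  have := mul_le_mul_of_nonneg_right hh (Nat.cast_nonneg G.card : (0:ℝ) ≤ _)
  unfold super
  linarith

/-- The total deficit of the degrees is controlled by the potential. -/
private theorem deficit (hY : 0 < Y) (G : Finset (Finset α)) {ε : ℝ} (hε : 0 < ε)
    (hε' : ε ≤ 1/10) :
    (G.card : ℝ) * Y - 3 * ((tri G).card : ℝ)
      ≤ Y * (ε * G.card + (∑ e ∈ G, phi (zeta G Y e - 1)) / ε) := by
  have h1 : (G.card : ℝ) * Y - 3 * ((tri G).card : ℝ) = Y * ∑ e ∈ G, -(zeta G Y e - 1) := by
    rw [← sum_deg, mul_sum]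
    simp only [zeta, neg_sub, mul_sub, mul_one, mul_div_cancel₀ _ hY.ne']
    rw [sum_sub_distrib, sum_const, nsmul_eq_mul]
  have h2 : ∑ e ∈ G, -(zeta G Y e - 1)
      ≤ ε * G.card + (∑ e ∈ G, phi (zeta G Y e - 1)) / ε := by
    calc _ ≤ ∑ e ∈ G, (ε + phi (zeta G Y e - 1) / ε) := sum_le_sum fun e _ => neg_le_phi hε hε'
      _ = _ := by rw [sum_add_distrib, sum_const, nsmul_eq_mul, sum_div, mul_comm]
  rw [h1]
  exact mul_le_mul_of_nonneg_left h2 hY.le

/-- With few triangles the potential alone pays for all edges. -/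
private theorem super_sparse (hM : 1 ≤ M) (hL : 1 ≤ L) (hY : M < Y) (hlog : log Y ≤ L)
    (G : Finset (Finset α)) (hQ : 3 * ((tri G).card : ℝ) ≤ G.card * Y / 2) :
    (G.card : ℝ) ≤ super M L G Y := by
  have hM0 : 0 < M := by linarith
  have hY0 : 0 < Y := by linarith
  have d := deficit hY0 G (ε := 1/10) (by norm_num) le_rfl
  set Φ := ∑ e ∈ G, phi (zeta G Y e - 1) with hΦ
  have hΦm : (G.card : ℝ) ≤ 25 * Φ := by nlinarith
  have hP : pot G Y = Y ^ 2 * Φ := rfl
  have a0 : 0 ≤ √M / √Y * hfun M L Y * G.card := by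
    have := (hfun_range hM hL hY hlog).1
    positivity
  have hb : 400 / √M ≤ bfun M Y := by
    have : 400 / √Y ≤ 400 / √M :=
      div_le_div_of_nonneg_left (by norm_num) (sqrt_pos.2 hM0) (sqrt_le_sqrt hY.le)
    unfold bfun; linarith [show (800:ℝ) / √M = 400 / √M + 400 / √M by ring]
  have hMY : √M ≤ √Y := sqrt_le_sqrt hY.le
  have key : 400 * Φ ≤ bfun M Y / (Y * √Y) * pot G Y := by
    rw [hP, show bfun M Y / (Y * √Y) * (Y ^ 2 * Φ) = bfun M Y * √Y * Φ by
      rw [show Y ^ 2 = Y * (√Y * √Y) by rw [mul_self_sqrt hY0.le]; ring]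
      field_simp]
    refine mul_le_mul_of_nonneg_right ?_ (sum_nonneg fun _ _ => phi_nonneg _)
    calc (400 : ℝ) = 400 / √M * √M := by rw [div_mul_cancel₀ _ (sqrt_pos.2 hM0).ne']
      _ ≤ bfun M Y * √Y := mul_le_mul hb hMY (sqrt_nonneg _) (bfun_nonneg hM0 (by linarith))
  unfold super
  linarith [sum_nonneg (s := G) (fun e _ => phi_nonneg (zeta G Y e - 1))]

/-- The arithmetic of one induction step. -/
private theorem step_arith {Q m Φ s r a0 b0 u : ℝ} (hL : 1 ≤ L) (hY : 144 ≤ Y) (hM : 1 ≤ M)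
    (hK : 5040000 * L ≤ M) (hm : 3 ≤ m) (hQ : 0 < Q) (hs : s = 2 * Y / Q) (hs' : s ≤ 12 / Y)
    (hr : r = √(1 + s)) (hu : u = √M / √Y) (hΦ : 0 ≤ Φ)
    (hd : m * Y - 3 * Q ≤ Y * (u / 10 * m + Φ / (u / 10)))
    (ha : 0 ≤ a0) (ha4 : a0 ≤ hfun M L Y - (u * s / 3 + s / (2 * L)))
    (hh : hfun M L Y ≤ 4) (hb : 0 ≤ b0) (hbe : b0 ≤ bfun M Y - 400 * (r - 1) / √Y) :
    u * r * a0 * (m - 3) + b0 / r * √Y * (Φ * (1 + s / 2) + 3150 * m * s / Y)
      ≤ u * hfun M L Y * m + bfun M Y * √Y * Φ := by
  have hY0 : 0 < Y := by linarith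
  have hs0 : 0 ≤ s := by rw [hs]; positivity
  have hs1 : s ≤ 1 := hs'.trans (by rw [div_le_one hY0]; linarith)
  have hy : 0 < √Y := sqrt_pos.2 hY0
  have hMs : 0 < √M := sqrt_pos.2 (by linarith)
  have hu0 : 0 < u := by rw [hu]; positivity
  have r2 : r ^ 2 = 1 + s := by rw [hr, sq_sqrt (by linarith)]
  have r1 : 1 ≤ r := by rw [hr, one_le_sqrt]; linarith
  have rle : r ≤ 1 + s / 2 := by nlinarith
  have rge : 1 + s / 3 ≤ r := by nlinarith
  -- the edge part
  have e1 : r * (m - 3) ≤ m + s / 2 * (u / 10 * m + Φ / (u / 10)) := by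
    have h1 : r * (m - 3) ≤ (1 + s / 2) * (m - 3) :=
      mul_le_mul_of_nonneg_right rle (by linarith)
    have h2 : s / 2 = Y / Q := by rw [hs]; ring
    have h3 : (m * Y - 3 * Q) / Q ≤ Y * (u / 10 * m + Φ / (u / 10)) / Q :=
      div_le_div_of_nonneg_right hd hQ.le
    have h4 : (m * Y - 3 * Q) / Q = m * (s / 2) - 3 := by rw [h2]; field_simp
    have h5 : Y * (u / 10 * m + Φ / (u / 10)) / Q = s / 2 * (u / 10 * m + Φ / (u / 10)) := by
      rw [h2]; ring
    rw [h4, h5] at h3
    linarith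
  have e2 : u * r * a0 * (m - 3)
      ≤ u * hfun M L Y * m - (u * u * s / 3 + u * s / (2 * L)) * m
        + u * u * s * m / 5 + 20 * s * Φ := by
    have a4 : a0 ≤ 4 := by
      have : 0 ≤ u * s / 3 + s / (2 * L) := by positivity
      linarith
    calc u * r * a0 * (m - 3) = u * a0 * (r * (m - 3)) := by ring
      _ ≤ u * a0 * (m + s / 2 * (u / 10 * m + Φ / (u / 10))) :=
          mul_le_mul_of_nonneg_left e1 (by positivity)
      _ = u * a0 * m + u * a0 * (s / 2 * (u / 10 * m + Φ / (u / 10))) := by ring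
      _ ≤ u * (hfun M L Y - (u * s / 3 + s / (2 * L))) * m
            + u * 4 * (s / 2 * (u / 10 * m + Φ / (u / 10))) := by gcongr
      _ = _ := by field_simp; ring
  -- the forcing part
  have e3 : b0 / r * √Y * (3150 * m * s / Y) ≤ u * s / (2 * L) * m := by
    have hb8 : b0 / r ≤ 800 / √M := by
      refine (div_le_self hb r1).trans (hbe.trans ?_)
      have : 0 ≤ 400 * (r - 1) / √Y := div_nonneg (by linarith) hy.le
      linarith [bfun_le M Y]
    calc b0 / r * √Y * (3150 * m * s / Y)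
        ≤ 800 / √M * √Y * (3150 * m * s / Y) := by gcongr
      _ = 5040000 * L * (m * s / (2 * L)) / (√M * √Y) := by
          field_simp
          rw [sq_sqrt hY0.le]; ring
      _ ≤ M * (m * s / (2 * L)) / (√M * √Y) := by gcongr
      _ = u * s / (2 * L) * m := by
          rw [hu]
          field_simp
          rw [sq_sqrt (by linarith : (0:ℝ) ≤ M)]
          ring
  -- the potential part
  have e4 : b0 / r * √Y * (Φ * (1 + s / 2)) + 20 * s * Φ ≤ bfun M Y * √Y * Φ := by
    have q : (1 + s / 2) / r ≤ 1 + s ^ 2 / 8 := by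
      rw [div_le_iff₀ (by linarith)]
      have : (1 + s / 2) ^ 2 ≤ ((1 + s ^ 2 / 8) * r) ^ 2 := by
        rw [mul_pow, r2]; nlinarith [pow_nonneg hs0 3, pow_nonneg hs0 4]
      exact pow_le_pow_iff_left₀ (by positivity) (by positivity) two_ne_zero |>.1 this
    have k1 : b0 * (s ^ 2 / 8) * √Y ≤ 100 * s := by
      have hb8 : b0 ≤ 800 := by
        refine hbe.trans ?_
        have : 0 ≤ 400 * (r - 1) / √Y := div_nonneg (by linarith) hy.le
        have : 800 / √M ≤ 800 := div_le_self (by norm_num) (one_le_sqrt.2 hM)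
        linarith [bfun_le M Y]
      have sy : s * √Y ≤ 1 := by
        calc s * √Y ≤ 12 / Y * √Y := by gcongr
          _ = 12 / √Y := by field_simp; rw [sq_sqrt hY0.le]
          _ ≤ 1 := by
            rw [div_le_one hy, le_sqrt (by norm_num) hY0.le]; linarith
      calc b0 * (s ^ 2 / 8) * √Y = b0 / 8 * s * (s * √Y) := by ring
        _ ≤ 800 / 8 * s * 1 := by gcongr
        _ = _ := by ring
    have k2 : b0 * √Y + 133 * s ≤ bfun M Y * √Y := by
      have := mul_le_mul_of_nonneg_right hbe hy.le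
      rw [sub_mul, div_mul_cancel₀ _ hy.ne'] at this
      linarith
    calc b0 / r * √Y * (Φ * (1 + s / 2)) + 20 * s * Φ
        = b0 * ((1 + s / 2) / r) * √Y * Φ + 20 * s * Φ := by ring
      _ ≤ b0 * (1 + s ^ 2 / 8) * √Y * Φ + 20 * s * Φ := by gcongr
      _ = (b0 * √Y + b0 * (s ^ 2 / 8) * √Y + 20 * s) * Φ := by ring
      _ ≤ _ := mul_le_mul_of_nonneg_right (by linarith) hΦ
  have e5 : u * u * s * m / 5 ≤ u * u * s / 3 * m := by
    have : 0 ≤ u * u * s * m := by positivity
    linarith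
  linarith

/-- The coefficients at the next scale. -/
private theorem next_scale {s : ℝ} (hM : 1 ≤ M) (hL : 1 ≤ L) (hY : M < Y)
    (hY' : M / 2 ≤ Y / (1 + s)) (hs0 : 0 ≤ s) (hs1 : s ≤ 1) :
    hfun M L (Y / (1 + s)) ≤ hfun M L Y - (√M / √Y * s / 3 + s / (2 * L)) ∧
    0 ≤ hfun M L (Y / (1 + s)) ∧
    bfun M (Y / (1 + s)) ≤ bfun M Y - 400 * (√(1 + s) - 1) / √Y := by
  have hM0 : 0 < M := by linarith
  have hY0 : 0 < Y := by linarith
  set r := √(1 + s) with hr
  have hr0 : 0 < r := sqrt_pos.2 (by linarith)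
  have sq' : √(Y / (1 + s)) = √Y / r := by rw [sqrt_div hY0.le]
  set u := √M / √Y with hu
  have u0 : 0 < u := by rw [hu]; positivity
  have u1 : u ≤ 1 := by
    rw [hu, div_le_one (sqrt_pos.2 hY0)]; exact sqrt_le_sqrt hY.le
  have r2 : r ^ 2 = 1 + s := by rw [hr, sq_sqrt (by linarith)]
  have u' : √M / √(Y / (1 + s)) = u * r := by rw [sq', hu]; field_simp
  have hg : 0 ≤ log (Y / M) := log_nonneg (by rw [one_le_div hM0]; exact hY.le)
  have l1 : log (Y / (1 + s) / M) = log (Y / M) - log (1 + s) := by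
    rw [div_right_comm, log_div (by positivity) (by linarith)]
  refine ⟨?_, ?_, ?_⟩
  · have l2 : s / 2 ≤ log (1 + s) := by
      have h1 := one_sub_inv_le_log_of_pos (show 0 < 1 + s by linarith)
      have h2 : s / 2 ≤ 1 - (1 + s)⁻¹ := by
        rw [le_sub_iff_add_le, ← le_sub_iff_add_le', inv_le_iff_one_le_mul₀ (by linarith)]
        nlinarith
      linarith
    have l3 : s / (2 * L) ≤ log (1 + s) / L := by
      rw [← div_div]; exact div_le_div_of_nonneg_right l2 (by linarith)
    have h3 : 1 + s / 3 ≤ r := by nlinarith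
    rw [hfun, hfun, u', l1, sub_div, ← hu]
    linarith [mul_le_mul_of_nonneg_left h3 u0.le]
  · have w0 : r ≤ 2 := by nlinarith
    have w1 : u * r ≤ 2 := by nlinarith
    have w2 : -(7/10) ≤ log (Y / (1 + s) / M) / L := by
      have : log (1/2) ≤ log (Y / (1 + s) / M) :=
        log_le_log (by norm_num) (by rw [le_div_iff₀ hM0]; linarith)
      rw [one_div, log_inv] at this
      rw [le_div_iff₀ (by linarith)]; linarith [log_two_lt_d9]
    rw [hfun, u']; linarith
  · unfold bfun; rw [sq', div_div_eq_mul_div]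
    linarith [show 400 * (r - 1) / √Y = 400 * r / √Y - 400 / √Y by ring]

/-- The potential term after one step. -/
private theorem transfer {s Q Φ m T b : ℝ} (hY : 0 < Y) (hQ : 0 < Q) (hs : s = 2 * Y / Q)
    (hb : 0 ≤ b) (hT : T * (1 + s) ^ 2 ≤ Y ^ 2 * Φ * (Q + Y) + 6300 * m * Y ^ 2) :
    b / (Y / (1 + s) * √(Y / (1 + s))) * T
      ≤ Q * (b / √(1 + s) * √Y * (Φ * (1 + s / 2) + 3150 * m * s / Y)) := by
  have hs0 : 0 ≤ s := by rw [hs]; positivity
  set r := √(1 + s) with hr
  have hr0 : 0 < r := sqrt_pos.2 (by linarith)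
  have r2 : r ^ 2 = 1 + s := by rw [hr, sq_sqrt (by linarith)]
  set y := √Y with hy
  have hy0 : 0 < y := sqrt_pos.2 hY
  have y2 : y ^ 2 = Y := by rw [hy, sq_sqrt hY.le]
  have hX : √(Y / (1 + s)) = y / r := by rw [sqrt_div hY.le]
  rw [hX]
  have hco : 0 ≤ b / (Y / (1 + s) * (y / r)) := div_nonneg hb (by positivity)
  refine (mul_le_mul_of_nonneg_left ((le_div_iff₀ (by positivity)).2 hT) hco).trans (le_of_eq ?_)
  rw [← r2, ← y2, show s = 2 * y ^ 2 / Q by rw [y2, hs]]
  field_simp
  ring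

/-- The supersolution bounds the expected leave. -/
theorem leave_le_super {L M N : ℝ} (hL : 1 ≤ L) (hK : 5040000 * L ≤ M) (hN : log N ≤ L)
    (G : Finset (Finset α)) :
    ∀ Y, M / 2 ≤ Y → Y ≤ N → leave G ≤ super M L G Y := by
  induction h : G.card using Nat.strong_induction_on generalizing G with
  | _ k ih =>
    subst h
    intro Y hY hYN
    have hM : 1 ≤ M := by linarith
    have hM0 : 0 < M := by linarith
    have hY0 : 0 < Y := by linarith
    rcases le_or_gt Y M with hYM | hYM
    · exact (leave_le_card G).trans (super_small hM hL hY hYM G)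
    have hlog : log Y ≤ L := (log_le_log hY0 hYN).trans hN
    set m : ℝ := (G.card : ℝ) with hm
    set Q : ℝ := ((tri G).card : ℝ) with hQ
    rcases le_or_gt (3 * Q) (m * Y / 2) with hsp | hsp
    · exact (leave_le_card G).trans (super_sparse hM hL hYM hlog G hsp)
    have hmY0 : 0 ≤ m * Y := by rw [hm]; positivity
    have hQ0 : 0 < Q := by linarith
    have hne : (tri G).Nonempty := card_pos.1 (by rw [hQ] at hQ0; exact_mod_cast hQ0)
    have hdm : 3 * Q ≤ m * (m / 2) := by
      rw [hQ, ← sum_deg]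
      refine (sum_le_sum fun e _ => (show (deg G e : ℝ) ≤ m / 2 by
        rw [le_div_iff₀ two_pos, mul_comm, hm]; exact_mod_cast two_deg_le e)).trans ?_
      simp [hm]
    have hm3 : 3 ≤ m := by
      obtain ⟨t, ht⟩ := hne
      have := card_le_card (mem_tri.1 ht).2
      rw [card_sides ht] at this
      rw [hm]; exact_mod_cast this
    have hmY : Y ≤ m := by nlinarith
    have hY144 : 144 ≤ Y := by linarith
    set s := 2 * Y / Q with hs
    have hs0 : 0 ≤ s := by positivity
    have hs' : s ≤ 12 / Y := by rw [hs, div_le_div_iff₀ hQ0 hY0]; nlinarith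
    have hs1 : s ≤ 1 := hs'.trans (by rw [div_le_one hY0]; linarith)
    set r := √(1 + s) with hr
    have hr0 : 0 < r := sqrt_pos.2 (by linarith)
    set Y' := Y / (1 + s) with hY'
    have hY'le : Y' ≤ Y := div_le_self hY0.le (by linarith)
    have hY'ge : M / 2 ≤ Y' := by rw [hY', le_div_iff₀ (by linarith)]; nlinarith
    have hY'0 : 0 < Y' := by linarith
    have sq' : √Y' = √Y / r := by rw [hY', sqrt_div hY0.le]
    set u := √M / √Y with hu
    have u0 : 0 < u := by rw [hu]; positivity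
    have u1 : u ≤ 1 := by
      rw [hu, div_le_one (sqrt_pos.2 hY0)]; exact sqrt_le_sqrt hYM.le
    have r1 : 1 ≤ r := by rw [hr, one_le_sqrt]; linarith
    have r2 : r ^ 2 = 1 + s := by rw [hr, sq_sqrt (by linarith)]
    have u' : √M / √Y' = u * r := by rw [sq', hu]; field_simp
    obtain ⟨-, h4⟩ := hfun_range hM hL hYM hlog
    obtain ⟨hΔ, hnn, hbe⟩ := next_scale hM hL hYM hY'ge hs0 hs1
    have hb : 0 ≤ bfun M Y' := bfun_nonneg hM0 hY'ge
    -- unfold one step
    rw [leave, if_pos hne, sum_attach (tri G) (fun t => leave (G \ sides t)), div_le_iff₀ hQ0]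
    have hc : ∀ t ∈ tri G, ((G \ sides t).card : ℝ) = m - 3 := fun t ht => by
      rw [card_sdiff_of_subset (mem_tri.1 ht).2, card_sides ht, Nat.cast_sub, hm]
      · norm_num
      · rw [hm] at hm3; exact_mod_cast hm3
    set Φ := ∑ e ∈ G, phi (zeta G Y e - 1) with hΦ
    have hP : pot G Y = Y ^ 2 * Φ := rfl
    set T := ∑ t ∈ tri G, pot (G \ sides t) Y' with hT
    have hstep : T * (1 + s) ^ 2 ≤ Y ^ 2 * Φ * (Q + Y) + 6300 * m * Y ^ 2 := by
      rw [← hP]; exact pot_step (by linarith) (by linarith) hne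
    have hsum : ∑ t ∈ tri G, leave (G \ sides t)
        ≤ Q * (u * r * hfun M L Y' * (m - 3)) + bfun M Y' / (Y' * √Y') * T := by
      calc _ ≤ ∑ t ∈ tri G, super M L (G \ sides t) Y' := sum_le_sum fun t ht =>
            ih _ (card_removed_lt ht) _ rfl Y' hY'ge (hY'le.trans hYN)
        _ = _ := by
          unfold super
          rw [sum_add_distrib, ← mul_sum, ← mul_sum, ← hT, sum_congr rfl hc, sum_const,
            nsmul_eq_mul, u', ← hQ]
          ring
    refine hsum.trans ?_
    have hTr : bfun M Y' / (Y' * √Y') * T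
        ≤ Q * (bfun M Y' / r * √Y * (Φ * (1 + s / 2) + 3150 * m * s / Y)) :=
      transfer hY0 hQ0 hs hb hstep
    have main := step_arith (Y := Y) (M := M) (L := L) hL hY144 hM hK hm3 hQ0 hs hs' hr hu
      (sum_nonneg fun e _ => phi_nonneg (zeta G Y e - 1))
      (deficit hY0 G (ε := u / 10) (by positivity) (by linarith)) hnn hΔ h4 hb hbe
    have e : super M L G Y = u * hfun M L Y * m + bfun M Y * √Y * Φ := by
      unfold super
      rw [hP, show bfun M Y / (Y * √Y) * (Y ^ 2 * Φ) = bfun M Y * √Y * Φ by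
        rw [show Y ^ 2 = Y * (√Y * √Y) by rw [mul_self_sqrt hY0.le]; ring]
        field_simp]
    rw [e, mul_comm _ Q]
    calc Q * (u * r * hfun M L Y' * (m - 3)) + bfun M Y' / (Y' * √Y') * T
        ≤ Q * (u * r * hfun M L Y' * (m - 3)
          + bfun M Y' / r * √Y * (Φ * (1 + s / 2) + 3150 * m * s / Y)) := by
          rw [mul_add]; linarith
      _ ≤ _ := mul_le_mul_of_nonneg_left main hQ0.le

/-- The expected leave of the process on `K_n` is `O(n^{3/2} √(log n))`. -/
theorem leave_complete_le :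
    ∃ C : ℝ, ∀ n : ℕ, 2 ≤ n →
      leave (complete n) ≤ C * ((n : ℝ) * √(n : ℝ)) * √(log (n : ℝ)) := by
  refine ⟨8 * √(15120000 : ℝ), fun n hn => ?_⟩
  set N : ℝ := (n : ℝ) with hN
  have hN2 : 2 ≤ N := by rw [hN]; exact_mod_cast hn
  have hl : 1/2 ≤ log N :=
    le_trans (by linarith [log_two_gt_d9]) (log_le_log two_pos hN2)
  set L := 1 + log N with hL
  set M := 5040000 * L with hM
  have hML : √M ≤ √(15120000 : ℝ) * √(log N) := by
    rw [← sqrt_mul (by norm_num)]; apply sqrt_le_sqrt; rw [hM, hL]; linarith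
  have hm : ((complete n).card : ℝ) ≤ N * N := by
    rw [complete, card_powersetCard, card_univ, Fintype.card_fin, hN, ← sq]
    exact_mod_cast Nat.choose_le_pow n 2
  suffices h : leave (complete n) ≤ 8 * √M * (N * √N) by
    refine h.trans ?_
    rw [mul_right_comm _ (N * √N) (√(log N))]
    refine mul_le_mul_of_nonneg_right ?_ (by positivity)
    rw [mul_assoc]; linarith
  have hnn : √N * √N = N := mul_self_sqrt (by linarith)
  have hMpos : 5040000 ≤ M := by rw [hM, hL]; linarith
  rcases lt_or_ge (N - 2) M with hsmall | hbig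
  · refine (leave_le_card _).trans (hm.trans ?_)
    have hNM : √N ≤ 8 * √M := by
      rw [sqrt_le_left (by positivity), mul_pow, sq_sqrt (by linarith)]; linarith
    calc N * N = √N * (N * √N) := by rw [mul_left_comm, hnn]
      _ ≤ _ := mul_le_mul_of_nonneg_right hNM (by positivity)
  · have h := leave_le_super (L := L) (M := M) (N := N) (by rw [hL]; linarith) le_rfl
      (by rw [hL]; linarith) (complete n) (N - 2) (by linarith) (by linarith)
    refine h.trans ?_
    have hp : pot (complete n) (N - 2) = 0 := by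
      unfold pot
      rw [sum_eq_zero, mul_zero]
      intro e he
      rw [deg_complete he, Nat.cast_sub hn, hN, Nat.cast_ofNat, div_self, sub_self, phi_zero]
      rw [hN] at hbig; linarith
    unfold super
    rw [hp, mul_zero, add_zero]
    rcases eq_or_lt_of_le hbig with hb | hb
    · have hu : √M / √(N - 2) = 1 := by
        rw [hb, div_self (sqrt_pos.2 (by linarith)).ne']
      have hh : hfun M L (N - 2) = 2 := by
        rw [hfun, hu, hb, div_self (by linarith), log_one, zero_div]; norm_num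
      rw [hu, hh]
      have hNM : √N ≤ 4 * √M := by
        rw [sqrt_le_left (by positivity), mul_pow, sq_sqrt (by linarith)]; linarith
      calc 1 * 2 * ((complete n).card : ℝ) ≤ 2 * (√N * (N * √N)) := by
            rw [mul_left_comm (√N), hnn]; linarith
        _ ≤ 2 * (4 * √M * (N * √N)) := by gcongr
        _ = _ := by ring
    obtain ⟨h2, h4⟩ := hfun_range (L := L) (M := M) (Y := N - 2) (by linarith) (by rw [hL]; linarith) hb
      ((log_le_log (show 0 < N - 2 by linarith) (show N - 2 ≤ N by linarith)).trans (by rw [hL]; linarith))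
    have hs2 : √N / 2 ≤ √(N - 2) := by
      rw [le_sqrt (by positivity) (by linarith), div_pow, sq_sqrt (by linarith)]; linarith
    have hNpos : 0 < √(N - 2) := sqrt_pos.2 (by linarith)
    calc √M / √(N - 2) * hfun M L (N - 2) * ((complete n).card : ℝ)
        ≤ √M / √(N - 2) * 4 * (N * N) := by gcongr
      _ = 4 * √M * (N * N) / √(N - 2) := by ring
      _ ≤ 4 * √M * (2 * √(N - 2) * (N * √N)) / √(N - 2) := by
          refine div_le_div_of_nonneg_right (mul_le_mul_of_nonneg_left ?_ (by positivity)) hNpos.le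
          calc N * N = √N * (N * √N) := by rw [mul_left_comm, hnn]
            _ ≤ _ := mul_le_mul_of_nonneg_right (by linarith) (by positivity)
      _ = _ := by field_simp; ring

end Vale.Agent.P046
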